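import Vale.Agent.P275.H490.Defs

/-! Row SUM: the divisor sum. -/

namespace Vale.Agent.P275.H205

open scoped BigOperators Topology
open Filter Vale.Agent.P275.H341 Vale.Agent.P275.H490

theorem T1_tendsto {f : ℕ → ℂ} {N : ℕ} {a b : ℂ} (h : T1 f N a b) :
    Tendsto (fun q : ℕ => f q / (q : ℂ) ^ N) atTop (𝓝 a) := by
  have h1 := h.mul (tendsto_inv_atTop_nhds_zero_nat (𝕜 := ℂ))
  rw [mul_zero] at h1
  have h2 := h1.add_const a
  rw [zero_add] at h2
  refine h2.congr' ?_
  filter_upwards [eventually_ge_atTop 1] with q hq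
  have hq' : (q : ℂ) ≠ 0 := by
    exact_mod_cast (by omega : q ≠ 0)
  rw [mul_assoc, mul_inv_cancel₀ hq', mul_one, sub_add_cancel]

theorem T1_drop {f : ℕ → ℂ} {N N' : ℕ} {a b : ℂ} (h : T1 f N a b) (hN : N + 2 ≤ N') :
    T1 f N' 0 0 := by
  have h1 := (T1_tendsto h).mul ((tendsto_inv_atTop_nhds_zero_nat (𝕜 := ℂ)).pow (N' - N - 1))
  rw [zero_pow (by omega), mul_zero] at h1
  refine h1.congr' ?_
  filter_upwards [eventually_ge_atTop 1] with q hq
  have hq' : (q : ℂ) ≠ 0 := by
    exact_mod_cast (by omega : q ≠ 0)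
  obtain ⟨j, rfl⟩ := Nat.exists_eq_add_of_le hN
  have h2 : N + 2 + j - N - 1 = j + 1 := by omega
  rw [h2, sub_zero]
  have h3 : N + 2 + j = N + (j + 1) + 1 := by omega
  rw [h3, inv_pow, pow_succ (q : ℂ) (N + (j + 1)), pow_add (q : ℂ) N (j + 1)]
  have h4 : (q : ℂ) ^ N ≠ 0 := pow_ne_zero _ hq'
  have h5 : (q : ℂ) ^ (j + 1) ≠ 0 := pow_ne_zero _ hq'
  generalize (q : ℂ) ^ (j + 1) = y at h5 ⊢
  generalize (q : ℂ) ^ N = x at h4 ⊢
  field_simp

theorem T1_const_mul {f : ℕ → ℂ} {N : ℕ} {a b : ℂ} (c : ℂ) (h : T1 f N a b) :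
    T1 (fun q => c * f q) N (c * a) (c * b) := by
  refine (h.const_mul c).congr fun q => ?_
  ring

theorem T1_sum {ι : Type} (s : Finset ι) (f : ι → ℕ → ℂ) (N : ℕ) (a b : ι → ℂ)
    (h : ∀ i ∈ s, T1 (f i) N (a i) (b i)) :
    T1 (fun q => ∑ i ∈ s, f i q) N (∑ i ∈ s, a i) (∑ i ∈ s, b i) := by
  refine (tendsto_finsetSum s h).congr fun q => ?_
  rw [Finset.sum_div, ← Finset.sum_sub_distrib, Finset.sum_mul]

theorem sum_moebius {m : ℕ} (hm : 2 ≤ m) :
    ∑ d ∈ m.divisors, ArithmeticFunction.moebius d = 0 := by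
  rw [← ArithmeticFunction.coe_mul_zeta_apply, ArithmeticFunction.moebius_mul_coe_zeta,
    ArithmeticFunction.one_apply_ne (by omega)]

theorem rowSUM : RowSUM := by
  intro n m g f hn hmn hm hg h
  have hn0 : (n : ℂ) ≠ 0 := by
    exact_mod_cast (by omega : n ≠ 0)
  have key : ∀ d ∈ n.divisors, T1 (fun q => ((ArithmeticFunction.moebius d : ℤ) : ℂ) * f d q)
      ((g - 1) * (n * (n / m + 1)))
      (((ArithmeticFunction.moebius d : ℤ) : ℂ) * if d ∣ m then ((n / m : ℕ) : ℂ) else 0)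
      (((ArithmeticFunction.moebius d : ℤ) : ℂ) *
        if d = 1 then -((n : ℂ) * (2 * g - 2)) else 0) := by
    intro d hd
    apply T1_const_mul
    have hdn : d ∣ n := Nat.dvd_of_mem_divisors hd
    have h1 := h d hdn
    by_cases hdm : d ∣ m
    · rw [Nat.lcm_eq_left hdm] at h1
      rw [if_pos hdm]
      exact h1
    · have hd1 : d ≠ 1 := fun h => hdm (h ▸ one_dvd m)
      rw [if_neg hdm, if_neg hd1]
      refine T1_drop h1 ?_
      obtain ⟨t, ht⟩ := Nat.dvd_lcm_left m d
      obtain ⟨s, hs⟩ := Nat.lcm_dvd hmn hdn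
      have hm0 : 0 < m := by omega
      have hs0 : s ≠ 0 := by
        rintro rfl
        omega
      have ht0 : t ≠ 0 := by
        rintro rfl
        rw [mul_zero] at ht
        rw [ht, zero_mul] at hs
        omega
      have ht1 : t ≠ 1 := by
        rintro rfl
        apply hdm
        rw [mul_one] at ht
        rw [← ht]
        exact Nat.dvd_lcm_right m d
      have hL : 0 < Nat.lcm m d := by
        rw [ht]
        exact Nat.mul_pos hm0 (by omega)
      have e1 : n / Nat.lcm m d = s := by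
        rw [hs]
        exact Nat.mul_div_cancel_left s hL
      have e2 : n / m = t * s := by
        rw [hs, ht, mul_assoc]
        exact Nat.mul_div_cancel_left _ hm0
      rw [e1, e2]
      have h2 : s + 2 ≤ t * s + 1 := by
        have : 2 * s ≤ t * s := Nat.mul_le_mul_right s (by omega)
        omega
      have h3 : 2 ≤ (g - 1) * n := by
        have h4 : 1 ≤ g - 1 := by omega
        have h5 : m ≤ n := Nat.le_of_dvd (by omega) hmn
        calc 2 ≤ n := by omega
          _ = 1 * n := (one_mul n).symm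
          _ ≤ (g - 1) * n := Nat.mul_le_mul_right n h4
      calc (g - 1) * (n * (s + 1)) + 2 ≤ (g - 1) * (n * (s + 1)) + (g - 1) * n := by omega
        _ = (g - 1) * (n * (s + 2)) := by ring
        _ ≤ (g - 1) * (n * (t * s + 1)) :=
          Nat.mul_le_mul_left _ (Nat.mul_le_mul_left _ h2)
  have h1 := T1_const_mul (1 / (n : ℂ)) (T1_sum _ _ _ _ _ key)
  have ha : ∑ d ∈ n.divisors, (((ArithmeticFunction.moebius d : ℤ) : ℂ) *
      if d ∣ m then ((n / m : ℕ) : ℂ) else 0) = 0 := by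
    have h2 : ∀ d ∈ n.divisors, (((ArithmeticFunction.moebius d : ℤ) : ℂ) *
        if d ∣ m then ((n / m : ℕ) : ℂ) else 0) = if d ∣ m then
          ((ArithmeticFunction.moebius d : ℤ) : ℂ) * ((n / m : ℕ) : ℂ) else 0 := by
      intro d _
      split_ifs <;> simp
    have h3 : n.divisors.filter (fun d => d ∣ m) = m.divisors := by
      ext d
      simp only [Finset.mem_filter, Nat.mem_divisors]
      constructor
      · rintro ⟨_, h⟩
        exact ⟨h, by omega⟩
      · rintro ⟨h, _⟩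
        exact ⟨⟨h.trans hmn, by omega⟩, h⟩
    rw [Finset.sum_congr rfl h2, ← Finset.sum_filter, h3, ← Finset.sum_mul, ← Int.cast_sum,
      sum_moebius hm, Int.cast_zero, zero_mul]
  have hb : ∑ d ∈ n.divisors, (((ArithmeticFunction.moebius d : ℤ) : ℂ) *
      if d = 1 then -((n : ℂ) * (2 * g - 2)) else 0) = -((n : ℂ) * (2 * g - 2)) := by
    rw [Finset.sum_eq_single 1]
    · simp
    · intro d _ hd
      rw [if_neg hd, mul_zero]
    · intro h
      exact absurd (Nat.one_mem_divisors.2 (by omega)) h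
  rw [ha, hb, mul_zero] at h1
  have e : 1 / (n : ℂ) * -((n : ℂ) * (2 * g - 2)) = -(2 * g - 2) := by
    field_simp
  rw [e] at h1
  exact h1

end Vale.Agent.P275.H205
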